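import Mathlib.Analysis.Complex.OpenMapping
import Mathlib.Analysis.Complex.RemovableSingularity
import Mathlib.Analysis.Calculus.InverseFunctionTheorem.Deriv
import Mathlib.MeasureTheory.Measure.Lebesgue.Complex
import Mathlib.MeasureTheory.Measure.Haar.NormedSpace

/-!
# P281, project T-M, R4 and R5 of T10 (helper406): restriction to lines, descent, zero sets
-/

open Set Filter Metric
open scoped Topology ComplexConjugate

noncomputable section

namespace Vale.Agent.P281.H406.TM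

section line
variable {V W : Type*} [NormedAddCommGroup V] [NormedSpace ℂ V] [NormedAddCommGroup W]
  [NormedSpace ℂ W]

/-- the line through `v` with direction `ξ` -/
def ln (v ξ : V) (s : ℂ) : V := v + s • ξ

theorem ln_zero (v ξ : V) : ln v ξ 0 = v := by simp [ln]

theorem ln_one (v w : V) : ln v (w - v) 1 = w := by simp [ln]

theorem analyticAt_ln (v ξ : V) (s : ℂ) : AnalyticAt ℂ (ln v ξ) s :=
  analyticAt_const.add (analyticAt_id.smul analyticAt_const)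

theorem continuous_ln (v ξ : V) : Continuous (ln v ξ) := by
  unfold ln
  fun_prop

/-- a function which is not constant near `v` is not constant on some line through `v` -/
theorem exists_line {f : V → W} {v : V} (hf : AnalyticAt ℂ f v) [CompleteSpace W]
    (h : ¬ ∀ᶠ u in 𝓝 v, f u = f v) : ∃ ξ : V, ¬ ∀ᶠ s in 𝓝 (0 : ℂ), f (ln v ξ s) = f v := by
  obtain ⟨R, hR, hR'⟩ := Metric.eventually_nhds_iff_ball.1 hf.eventually_analyticAt
  by_contra hcon
  push Not at hcon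
  apply h
  filter_upwards [ball_mem_nhds v hR] with w hw
  by_cases hwv : w = v
  · rw [hwv]
  have hξ : 0 < ‖w - v‖ := norm_pos_iff.2 (sub_ne_zero.2 hwv)
  have hξR : ‖w - v‖ < R := by rwa [mem_ball, dist_eq_norm] at hw
  set U : Set ℂ := ball (0 : ℂ) (R / ‖w - v‖) with hU
  have hLU : ∀ s ∈ U, ln v (w - v) s ∈ ball v R := by
    intro s hs
    rw [hU, mem_ball, dist_zero_right, lt_div_iff₀ hξ] at hs
    rw [mem_ball, dist_eq_norm, ln, add_sub_cancel_left, norm_smul]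
    exact hs
  have h1 : (1 : ℂ) ∈ U := by
    rw [hU, mem_ball, dist_zero_right, norm_one, lt_div_iff₀ hξ, one_mul]
    exact hξR
  have h0 : (0 : ℂ) ∈ U := by
    rw [hU, mem_ball, dist_self]
    positivity
  have ha : AnalyticOnNhd ℂ (fun s => f (ln v (w - v) s)) U := fun s hs =>
    AnalyticAt.fun_comp (hR' _ (hLU s hs)) (analyticAt_ln v (w - v) s)
  have h2 := ha.eqOn_of_preconnected_of_eventuallyEq (g := fun _ => f v)
    (fun s _ => analyticAt_const) (convex_ball _ _).isPreconnected h0 (hcon (w - v))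
  have h3 := h2 h1
  simpa only [ln_one] using h3

end line

/-! ### R5 -/

/-- minimum modulus -/
theorem exists_zero {f : ℂ → ℂ} {r m : ℝ} (hr : 0 < r) (hf : DiffContOnCl ℂ f (ball 0 r))
    (h0 : ‖f 0‖ < m) (hm : ∀ z ∈ sphere (0 : ℂ) r, m ≤ ‖f z‖) :
    ∃ z ∈ closedBall (0 : ℂ) r, f z = 0 := by
  by_contra hcon
  push Not at hcon
  have hm0 : 0 < m := (norm_nonneg _).trans_lt h0
  have hcl : closure (ball (0 : ℂ) r) = closedBall 0 r := closure_ball 0 hr.ne'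
  have hg : DiffContOnCl ℂ (f⁻¹) (ball 0 r) := hf.inv fun z hz => hcon z (by rwa [hcl] at hz)
  have h1 := Complex.norm_le_of_forall_mem_frontier_norm_le isBounded_ball hg (C := m⁻¹)
    (fun z hz => by
      rw [frontier_ball 0 hr.ne'] at hz
      rw [Pi.inv_apply, norm_inv]
      exact inv_anti₀ hm0 (hm z hz))
    (subset_closure (mem_ball_self hr))
  rw [Pi.inv_apply, norm_inv] at h1
  have h2 : 0 < ‖f 0‖ := norm_pos_iff.2 (hcon 0 (mem_closedBall_self hr.le))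
  have h3 := (inv_le_inv₀ h2 hm0).1 h1
  linarith

theorem not_countable_of_param {V : Type*} {Z : Set V} (π : V → ℂ) {δ : ℝ} (hδ : 0 < δ)
    (h : ∀ τ : ℝ, 0 < τ → τ < δ → ∃ z ∈ Z, π z = τ) : ¬ Z.Countable := by
  intro hZ
  have h1 : (π '' Z).Countable := hZ.image π
  have h2 : ((fun τ : ℝ => (τ : ℂ)) ⁻¹' (π '' Z)).Countable :=
    h1.preimage_of_injOn (Complex.ofReal_injective.injOn)
  have h3 : Ioo 0 δ ⊆ (fun τ : ℝ => (τ : ℂ)) ⁻¹' (π '' Z) := by
    intro τ hτ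
    obtain ⟨z, hz, hzτ⟩ := h τ hτ.1 hτ.2
    exact ⟨z, hz, hzτ⟩
  have h4 := (h2.mono h3).measure_zero MeasureTheory.volume
  rw [Real.volume_Ioo, sub_zero, ENNReal.ofReal_eq_zero] at h4
  linarith

theorem unc (e : (Fin 2 → ℂ) → ℂ) (v₀ : Fin 2 → ℂ) (he : AnalyticAt ℂ e v₀) (h0 : e v₀ = 0)
    {N : Set (Fin 2 → ℂ)} (hN : N ∈ 𝓝 v₀) : ¬ (N ∩ {v | e v = 0}).Countable := by
  by_cases hconst : ∀ᶠ u in 𝓝 v₀, e u = e v₀
  · -- `e = 0` near `v₀`
    obtain ⟨R, hR, hR'⟩ := Metric.eventually_nhds_iff_ball.1 (hconst.and (eventually_mem_nhds_iff.2 hN))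
    refine not_countable_of_param (fun v => v 0 - v₀ 0) hR fun τ hτ hτR => ?_
    have h1 : ln v₀ (Pi.single 0 1) (τ : ℂ) ∈ ball v₀ R := by
      rw [mem_ball, dist_eq_norm, ln, add_sub_cancel_left, norm_smul, Complex.norm_real,
        Real.norm_of_nonneg hτ.le, Pi.norm_single, norm_one, mul_one]
      exact hτR
    refine ⟨ln v₀ (Pi.single 0 1) (τ : ℂ), ⟨mem_of_mem_nhds (hR' _ h1).2, ?_⟩, ?_⟩
    · rw [mem_ofPred_eq, (hR' _ h1).1, h0]
    · simp [ln]
  obtain ⟨ξ, hξ⟩ := exists_line he hconst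
  set η : Fin 2 → ℂ := ![-conj (ξ 1), conj (ξ 0)] with hη
  have hξ0 : ξ ≠ 0 := by
    rintro rfl
    exact hξ (Eventually.of_forall fun s => by simp [ln])
  set φ : (Fin 2 → ℂ) → ℂ := fun v => ξ 0 * v 1 - ξ 1 * v 0 with hφ
  have hφη : φ η ≠ 0 := by
    have h1 : φ η = ((‖ξ 0‖ ^ 2 + ‖ξ 1‖ ^ 2 : ℝ) : ℂ) := by
      simp only [hφ, hη, Matrix.cons_val_zero, Matrix.cons_val_one]
      rw [mul_neg, sub_neg_eq_add, Complex.mul_conj, Complex.mul_conj, Complex.normSq_eq_norm_sq,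
        Complex.normSq_eq_norm_sq]
      push_cast
      ring
    rw [h1, Complex.ofReal_ne_zero]
    intro h2
    apply hξ0
    have h3 : ‖ξ 0‖ = 0 := by nlinarith [sq_nonneg ‖ξ 0‖, sq_nonneg ‖ξ 1‖]
    have h4 : ‖ξ 1‖ = 0 := by nlinarith [sq_nonneg ‖ξ 0‖, sq_nonneg ‖ξ 1‖]
    funext i
    fin_cases i
    · exact norm_eq_zero.1 h3
    · exact norm_eq_zero.1 h4
  -- the map `G (τ, s) = v₀ + τ η + s ξ`
  set G : ℂ × ℂ → (Fin 2 → ℂ) := fun q => v₀ + q.1 • η + q.2 • ξ with hG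
  have hGc : Continuous G := by fun_prop
  have hG0 : G (0, 0) = v₀ := by simp [hG]
  have hev : ∀ᶠ v in 𝓝 v₀, AnalyticAt ℂ e v ∧ v ∈ N := he.eventually_analyticAt.and hN
  have hev2 : ∀ᶠ q in 𝓝 ((0 : ℂ), (0 : ℂ)), AnalyticAt ℂ e (G q) ∧ G q ∈ N := by
    have := hGc.tendsto (0, 0)
    rw [hG0] at this
    exact this.eventually hev
  -- isolated zero on the line
  have hu : AnalyticAt ℂ (fun s => e (ln v₀ ξ s)) 0 :=
    AnalyticAt.fun_comp (by rw [ln_zero]; exact he) (analyticAt_ln v₀ ξ 0)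
  have hiso : ∀ᶠ s in 𝓝[≠] (0 : ℂ), e (ln v₀ ξ s) ≠ 0 := by
    rcases hu.eventually_eq_zero_or_eventually_ne_zero with h | h
    · exact absurd (h.mono fun s hs => by rw [hs, h0]) hξ
    · exact h
  rw [nhds_prod_eq] at hev2
  obtain ⟨P₁, hP₁, P₂, hP₂, hP⟩ := eventually_prod_iff.1 hev2
  have h5 : ∀ᶠ s in 𝓝 (0 : ℂ), P₂ s ∧ (s ≠ 0 → e (ln v₀ ξ s) ≠ 0) :=
    hP₂.and (eventually_nhdsWithin_iff.1 hiso)
  obtain ⟨R, hR, hR'⟩ := Metric.eventually_nhds_iff_ball.1 h5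
  set r : ℝ := R / 2 with hr
  have hr0 : 0 < r := by positivity
  have hrR : closedBall (0 : ℂ) r ⊆ ball 0 R := closedBall_subset_ball (by linarith)
  have hGln : ∀ s, G (0, s) = ln v₀ ξ s := fun s => by simp [hG, ln]
  -- the minimum on the circle
  obtain ⟨m, hm0, hm⟩ : ∃ m > 0, ∀ s ∈ sphere (0 : ℂ) r, m < ‖e (G (0, s))‖ := by
    have hc : ContinuousOn (fun s => ‖e (G (0, s))‖) (sphere (0 : ℂ) r) := by
      intro s hs
      have h6 : AnalyticAt ℂ e (G (0, s)) :=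
        (hP hP₁.self_of_nhds (hR' s (hrR (sphere_subset_closedBall hs))).1).1
      exact ((h6.continuousAt.comp (f := fun s => G (0, s)) (by fun_prop)).norm).continuousWithinAt
    obtain ⟨s₀, hs₀, hmin⟩ := (isCompact_sphere (0 : ℂ) r).exists_isMinOn
      (NormedSpace.sphere_nonempty.2 hr0.le) hc
    have h7 : 0 < ‖e (G (0, s₀))‖ := by
      rw [norm_pos_iff, hGln]
      refine (hR' s₀ (hrR (sphere_subset_closedBall hs₀))).2 ?_
      rintro rfl
      rw [mem_sphere, dist_self] at hs₀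
      exact hr0.ne hs₀
    refine ⟨‖e (G (0, s₀))‖ / 2, by positivity, fun s hs => ?_⟩
    have h8 : ‖e (G (0, s₀))‖ ≤ ‖e (G (0, s))‖ := hmin hs
    linarith
  -- nearby slices
  have h9 : ∀ᶠ τ in 𝓝 (0 : ℂ), ∀ s ∈ sphere (0 : ℂ) r, m ≤ ‖e (G (τ, s))‖ := by
    refine (isCompact_sphere (0 : ℂ) r).eventually_forall_of_forall_eventually fun s hs => ?_
    have h6 : AnalyticAt ℂ e (G (0, s)) :=
      (hP hP₁.self_of_nhds (hR' s (hrR (sphere_subset_closedBall hs))).1).1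
    have h10 : ContinuousAt (fun q : ℂ × ℂ => ‖e (G q)‖) (0, s) :=
      (h6.continuousAt.comp hGc.continuousAt).norm
    exact (h10.eventually (lt_mem_nhds (hm s hs))).mono fun q hq => le_of_lt hq
  have h11 : ∀ᶠ τ in 𝓝 (0 : ℂ), ‖e (G (τ, 0))‖ < m := by
    have h10 : ContinuousAt (fun τ : ℂ => ‖e (G (τ, 0))‖) 0 := by
      refine ContinuousAt.norm (ContinuousAt.comp (g := e) (f := fun τ : ℂ => G (τ, 0)) ?_
        (by fun_prop))
      rw [show G ((0 : ℂ), (0 : ℂ)) = v₀ from hG0]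
      exact he.continuousAt
    refine h10.eventually (gt_mem_nhds ?_)
    show ‖e (G ((0 : ℂ), (0 : ℂ)))‖ < m
    rw [hG0, h0, norm_zero]
    exact hm0
  obtain ⟨δ, hδ, hδ'⟩ := Metric.eventually_nhds_iff_ball.1 ((h9.and h11).and hP₁)
  refine not_countable_of_param (fun v => φ (v - v₀) / φ η) hδ fun τ hτ hτδ => ?_
  have hτb : (τ : ℂ) ∈ ball (0 : ℂ) δ := by
    rw [mem_ball, dist_zero_right, Complex.norm_real, Real.norm_of_nonneg hτ.le]
    exact hτδ
  obtain ⟨⟨h12, h13⟩, h14⟩ := hδ' _ hτb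
  have hd : DiffContOnCl ℂ (fun s => e (G ((τ : ℂ), s))) (ball 0 r) := by
    have h15 : ∀ s ∈ closedBall (0 : ℂ) r, DifferentiableAt ℂ (fun s => e (G ((τ : ℂ), s))) s := by
      intro s hs
      have h6 : AnalyticAt ℂ e (G ((τ : ℂ), s)) := (hP h14 (hR' s (hrR hs)).1).1
      refine DifferentiableAt.comp (g := e) (f := fun s : ℂ => G ((τ : ℂ), s)) s
        h6.differentiableAt ?_
      show DifferentiableAt ℂ (fun s : ℂ => v₀ + (τ : ℂ) • η + s • ξ) s
      fun_prop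
    refine DifferentiableOn.diffContOnCl ?_
    rw [closure_ball 0 hr0.ne']
    exact fun s hs => (h15 s hs).differentiableWithinAt
  obtain ⟨s, hs, hs0⟩ := exists_zero hr0 hd h13 h12
  refine ⟨G ((τ : ℂ), s), ⟨(hP h14 (hR' s (hrR hs)).1).2, hs0⟩, ?_⟩
  have h16 : φ (G ((τ : ℂ), s) - v₀) = τ * φ η := by
    simp only [hφ, hG, Pi.sub_apply, Pi.add_apply, Pi.smul_apply, smul_eq_mul]
    ring
  rw [h16, mul_div_assoc, div_self hφη, mul_one]

/-! ### R4 -/

theorem desc {V : Type*} [NormedAddCommGroup V] [NormedSpace ℂ V] {γ ρ : V → ℂ} {lam : ℂ → ℂ}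
    {v₀ : V} {B : ℝ} (hγ : AnalyticAt ℂ γ v₀) (hconst : ¬ ∀ᶠ v in 𝓝 v₀, γ v = γ v₀)
    (h : ∀ᶠ v in 𝓝 v₀, γ v ≠ γ v₀ → AnalyticAt ℂ ρ v ∧ ρ v = lam (γ v) ∧ ‖ρ v‖ ≤ B) :
    ∃ lam' : ℂ → ℂ, AnalyticAt ℂ lam' (γ v₀) ∧ ∀ᶠ c in 𝓝 (γ v₀), c ≠ γ v₀ → lam' c = lam c := by
  obtain ⟨ξ, hξ⟩ := exists_line hγ hconst
  set g : ℂ → ℂ := fun s => γ (ln v₀ ξ s) with hg
  have hg0 : g 0 = γ v₀ := by rw [hg]; simp only [ln_zero]
  have hga : AnalyticAt ℂ g 0 :=
    AnalyticAt.fun_comp (by rw [ln_zero]; exact hγ) (analyticAt_ln v₀ ξ 0)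
  have hgc : ¬ ∀ᶠ s in 𝓝 (0 : ℂ), g s = g 0 := by rwa [hg0]
  have h1 : ∀ᶠ s in 𝓝[≠] (0 : ℂ), g s ≠ γ v₀ := by
    rcases (hga.fun_sub (analyticAt_const (v := γ v₀))).eventually_eq_zero_or_eventually_ne_zero
      with h' | h'
    · exact absurd (h'.mono fun s hs => by rw [hg0]; exact sub_eq_zero.1 hs) hgc
    · exact h'.mono fun s hs => sub_ne_zero.1 hs
  have h2 : ∀ᶠ s in 𝓝[≠] (0 : ℂ), deriv g s ≠ 0 := by
    rcases hga.deriv.eventually_eq_zero_or_eventually_ne_zero with h' | h'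
    · exfalso
      apply hgc
      obtain ⟨R, hR, hR'⟩ := Metric.eventually_nhds_iff_ball.1 (h'.and hga.eventually_analyticAt)
      filter_upwards [ball_mem_nhds (0 : ℂ) hR] with s hs
      refine (convex_ball (0 : ℂ) R).is_const_of_fderivWithin_eq_zero (𝕜 := ℂ)
        (fun x hx => (hR' x hx).2.differentiableAt.differentiableWithinAt) (fun x hx => ?_) hs
        (mem_ball_self hR)
      rw [fderivWithin_of_isOpen isOpen_ball hx]
      ext
      simpa using (hR' x hx).1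
    · exact h'
  have h3 : ∀ᶠ s in 𝓝 (0 : ℂ), g s ≠ γ v₀ → AnalyticAt ℂ ρ (ln v₀ ξ s) ∧
      ρ (ln v₀ ξ s) = lam (g s) ∧ ‖ρ (ln v₀ ξ s)‖ ≤ B := by
    have := (continuous_ln v₀ ξ).tendsto 0
    rw [ln_zero] at this
    exact this.eventually h
  have h4 : ∀ᶠ s in 𝓝 (0 : ℂ), (s ≠ 0 → g s ≠ γ v₀) ∧ (s ≠ 0 → deriv g s ≠ 0) ∧
      (g s ≠ γ v₀ → AnalyticAt ℂ ρ (ln v₀ ξ s) ∧ ρ (ln v₀ ξ s) = lam (g s) ∧
        ‖ρ (ln v₀ ξ s)‖ ≤ B) ∧ AnalyticAt ℂ g s :=
    (eventually_nhdsWithin_iff.1 h1).and ((eventually_nhdsWithin_iff.1 h2).and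
      (h3.and hga.eventually_analyticAt))
  obtain ⟨R, hR, hR'⟩ := Metric.eventually_nhds_iff_ball.1 h4
  have hopen : g '' ball (0 : ℂ) R ∈ 𝓝 (γ v₀) := by
    rcases hga.eventually_constant_or_nhds_le_map_nhds with h' | h'
    · exact absurd h' hgc
    · rw [← hg0]
      exact h' (image_mem_map (ball_mem_nhds 0 hR))
  obtain ⟨r, hr, hr'⟩ := Metric.mem_nhds_iff.1 hopen
  have key : ∀ c ∈ ball (γ v₀) r, c ≠ γ v₀ → DifferentiableAt ℂ lam c ∧ ‖lam c‖ ≤ B := by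
    intro c hc hcne
    obtain ⟨s, hs, rfl⟩ := hr' hc
    have hs0 : s ≠ 0 := by
      rintro rfl
      exact hcne hg0
    obtain ⟨-, h5, h6, h7⟩ := hR' s hs
    obtain ⟨h8, h9, h10⟩ := h6 hcne
    refine ⟨?_, by rw [← h9]; exact h10⟩
    have hsd : HasStrictDerivAt g (deriv g s) s := h7.hasStrictDerivAt
    have hfe := (hasStrictDerivAt_iff_hasStrictFDerivAt.1 hsd)
    set k : ℂ → ℂ := hsd.localInverse g (deriv g s) s (h5 hs0) with hk
    have hkd : HasStrictDerivAt k (deriv g s)⁻¹ (g s) := hsd.to_localInverse (h5 hs0)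
    have hks : k (g s) = s := HasStrictFDerivAt.localInverse_apply_image _
    have hkr : ∀ᶠ c in 𝓝 (g s), g (k c) = c := HasStrictFDerivAt.eventually_right_inverse _
    have hkb : ∀ᶠ c in 𝓝 (g s), k c ∈ ball (0 : ℂ) R := by
      refine hkd.hasDerivAt.continuousAt.eventually (isOpen_ball.mem_nhds ?_)
      rw [hks]
      exact hs
    have h11 : DifferentiableAt ℂ (fun c => ρ (ln v₀ ξ (k c))) (g s) := by
      have h12 : DifferentiableAt ℂ ρ (ln v₀ ξ (k (g s))) := by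
        rw [hks]
        exact h8.differentiableAt
      refine DifferentiableAt.comp (g := ρ) (f := fun c => ln v₀ ξ (k c)) (g s) h12 ?_
      exact (analyticAt_ln v₀ ξ _).differentiableAt.comp (g s) hkd.hasDerivAt.differentiableAt
    refine h11.congr_of_eventuallyEq ?_
    filter_upwards [hkr, hkb, isOpen_ne.mem_nhds hcne] with c' h13 h14 h15
    have h16 := (hR' _ h14).2.2.1 (by rw [h13]; exact h15)
    rw [h16.2.1, h13]
  refine ⟨Function.update lam (γ v₀) (limUnder (𝓝[≠] (γ v₀)) lam), ?_, ?_⟩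
  · have h17 := Complex.differentiableOn_update_limUnder_of_bddAbove (f := lam)
      (ball_mem_nhds (γ v₀) hr)
      (fun c hc => (key c hc.1 hc.2).1.differentiableWithinAt)
      ⟨B, by
        rintro _ ⟨c, hc, rfl⟩
        exact (key c hc.1 hc.2).2⟩
    exact h17.analyticAt (ball_mem_nhds (γ v₀) hr)
  · exact Eventually.of_forall fun c hc => Function.update_of_ne hc _ _

end Vale.Agent.P281.H406.TM
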