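import Vale.Agent.P281.H740.TM.SpecR
import Vale.Agent.P281.H406.TM.Line

/-!
# P281, project T-M, T10: R4 `DescStmt` and R5 `UncStmt` (helper406)
-/

noncomputable section

namespace Vale.Agent.P281.H406.TM

open Vale.Agent.P281.H740.TM

/-- **R4** -/
theorem descStmt : DescStmt := fun _ _ _ _ _ _ hγ hc h => desc hγ hc h

/-- **R5** -/
theorem uncStmt : UncStmt := fun e v₀ he h0 _ hN => unc e v₀ he h0 hN

end Vale.Agent.P281.H406.TM
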